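import Vale.Agent.P181.NR.DefsP

set_option autoImplicit false

/-!
# P181, NR: (P3), the numbers of the second step
-/

namespace Vale.Agent.P181.NR.H436

open Filter
open Vale.Agent.P181.H280 (plethMult)
open Vale.Agent.P181.FR (gw)

/-- `C(a + x, x) ≤ (e (1 + x / a)) ^ a`. -/
lemma choose_real {a : ℕ} (ha : 0 < a) (x : ℕ) :
    ((a + x).choose x : ℝ) ≤ (Real.exp 1 * (1 + (x : ℝ) / a)) ^ a := by
  have ha' : (0 : ℝ) < a := by exact_mod_cast ha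
  have h0 : (a + x).choose x = (a + x).choose a := by
    rw [Nat.choose_symm_add]
  have h1 : ((a + x).choose a : ℝ) ≤ ((a + x : ℕ) : ℝ) ^ a / (a.factorial : ℝ) :=
    Nat.choose_le_pow_div a (a + x)
  have h2 : (a : ℝ) ^ a / (a.factorial : ℝ) ≤ Real.exp a :=
    Real.pow_div_factorial_le_exp (a : ℝ) ha'.le a
  have h3 : ((a + x : ℕ) : ℝ) ^ a / (a.factorial : ℝ) =
      (1 + (x : ℝ) / a) ^ a * ((a : ℝ) ^ a / (a.factorial : ℝ)) := by
    rw [← mul_div_assoc, ← mul_pow]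
    congr 2
    push_cast
    field_simp
  have h4 : Real.exp (a : ℝ) = Real.exp 1 ^ a := by
    rw [← Real.exp_nat_mul, mul_one]
  rw [h0]
  calc ((a + x).choose a : ℝ) ≤ (1 + (x : ℝ) / a) ^ a * ((a : ℝ) ^ a / (a.factorial : ℝ)) :=
        h1.trans h3.le
    _ ≤ (1 + (x : ℝ) / a) ^ a * Real.exp 1 ^ a := by
        rw [← h4]
        exact mul_le_mul_of_nonneg_left h2 (by positivity)
    _ = _ := by rw [mul_pow, mul_comm]

/-- Rounding. -/
lemma floor_real {u v : ℕ} (hv : 0 < v) : (u : ℝ) ≤ 2 * v * (max 1 (u / v) : ℕ) := by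
  have h1 : u < v * (u / v + 1) := Nat.lt_mul_div_succ u hv
  have h2 : u / v + 1 ≤ 2 * max 1 (u / v) := by
    have := le_max_left 1 (u / v)
    have := le_max_right 1 (u / v)
    omega
  have h3 : u ≤ 2 * v * max 1 (u / v) := by
    calc u ≤ v * (u / v + 1) := h1.le
      _ ≤ v * (2 * max 1 (u / v)) := Nat.mul_le_mul_left _ h2
      _ = _ := by ring
  exact_mod_cast h3

/-- The final comparison. -/
lemma final_real {L q x C A Λ : ℝ} {a b k N1 N2 B mm r : ℕ} (hq : 1 ≤ q)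
    (h4 : (4 : ℝ) ≤ Real.exp q) (h2e : 2 * Real.exp 1 ≤ Real.exp q) (hqA : q ≤ A * Λ)
    (hab : a ≤ b) (hN : N2 = N1 + mm * B) (hN2b : N2 ≤ b) (hr : N1 = a + r)
    (hr2 : (b : ℝ) - a ≤ 2 * r) (hLB : L * B ≤ b) (hx0 : 0 ≤ x)
    (hx : C * b * Λ ≤ ((b : ℝ) - a) * x)
    (hC : 2 * A * (6 + 2 * (k + 1) + 2 * mm) ≤ C) (hΛ : 0 ≤ Λ) :
    (4 : ℝ) ^ b * (2 * Real.exp 1 * Real.exp q) ^ (a * (k + 1)) *
      ((Real.exp L * Real.exp q) ^ N2 * (Real.exp L * Real.exp q) ^ N2) ≤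
    (Real.exp L / Real.exp q) ^ N1 * (Real.exp L / Real.exp q) ^ N1 *
      (Real.exp x / Real.exp q) ^ r := by
  have e1 : (4 : ℝ) ^ b ≤ Real.exp (b * q) := by
    rw [Real.exp_nat_mul]
    exact pow_le_pow_left₀ (by norm_num) h4 _
  have e2 : (2 * Real.exp 1 * Real.exp q) ^ (a * (k + 1)) ≤
      Real.exp (((a * (k + 1) : ℕ) : ℝ) * (q + q)) := by
    rw [Real.exp_nat_mul]
    refine pow_le_pow_left₀ (by positivity) ?_ _
    rw [Real.exp_add]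
    exact mul_le_mul_of_nonneg_right h2e (Real.exp_pos _).le
  have e3 : (Real.exp L * Real.exp q) ^ N2 = Real.exp (N2 * (L + q)) := by
    rw [Real.exp_nat_mul, Real.exp_add]
  have e4 : (Real.exp L / Real.exp q) ^ N1 = Real.exp (N1 * (L - q)) := by
    rw [Real.exp_nat_mul, Real.exp_sub]
  have e5 : (Real.exp x / Real.exp q) ^ r = Real.exp (r * (x - q)) := by
    rw [Real.exp_nat_mul, Real.exp_sub]
  rw [e3, e4, e5]
  calc (4 : ℝ) ^ b * (2 * Real.exp 1 * Real.exp q) ^ (a * (k + 1)) *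
      (Real.exp (N2 * (L + q)) * Real.exp (N2 * (L + q)))
      ≤ Real.exp (b * q) * Real.exp (((a * (k + 1) : ℕ) : ℝ) * (q + q)) *
      (Real.exp (N2 * (L + q)) * Real.exp (N2 * (L + q))) := by
        refine mul_le_mul_of_nonneg_right ?_ (by positivity)
        exact mul_le_mul e1 e2 (by positivity) (by positivity)
    _ = Real.exp (b * q + ((a * (k + 1) : ℕ) : ℝ) * (q + q) +
        (N2 * (L + q) + N2 * (L + q))) := by
        rw [Real.exp_add, Real.exp_add, Real.exp_add]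
    _ ≤ Real.exp (N1 * (L - q) + N1 * (L - q) + r * (x - q)) := by
        rw [Real.exp_le_exp]
        have hN' : (N2 : ℝ) = N1 + mm * B := by rw [hN]; push_cast; ring
        have hr' : (N1 : ℝ) = a + r := by rw [hr]; push_cast; ring
        have hN2' : (N2 : ℝ) ≤ b := by exact_mod_cast hN2b
        have hab' : (a : ℝ) ≤ b := by exact_mod_cast hab
        have ha0 : (0 : ℝ) ≤ a := Nat.cast_nonneg a
        have hb0 : (0 : ℝ) ≤ b := Nat.cast_nonneg b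
        have hB0 : (0 : ℝ) ≤ B := Nat.cast_nonneg B
        have hmm0 : (0 : ℝ) ≤ mm := Nat.cast_nonneg mm
        have hk0 : (0 : ℝ) ≤ k := Nat.cast_nonneg k
        have hr0 : (0 : ℝ) ≤ r := Nat.cast_nonneg r
        have hN1b : (N1 : ℝ) ≤ b := by
          have : N1 ≤ b := by omega
          exact_mod_cast this
        have hrb : (r : ℝ) ≤ b := by linarith
        have hq0 : (0 : ℝ) ≤ q := by linarith
        push_cast
        -- the main numbers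
        have f1 : (a : ℝ) * (k + 1) * (q + q) ≤ b * (k + 1) * (q + q) := by gcongr
        have f2 : (mm : ℝ) * B * L ≤ mm * b := by
          calc (mm : ℝ) * B * L = mm * (L * B) := by ring
            _ ≤ mm * b := mul_le_mul_of_nonneg_left hLB hmm0
        have f3 : (mm : ℝ) * b ≤ mm * b * q := le_mul_of_one_le_right (by positivity) hq
        have f4 : (N2 : ℝ) * q ≤ b * q := mul_le_mul_of_nonneg_right hN2' hq0
        have f5 : (N1 : ℝ) * q ≤ b * q := mul_le_mul_of_nonneg_right hN1b hq0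
        have f6 : (r : ℝ) * q ≤ b * q := mul_le_mul_of_nonneg_right hrb hq0
        have f7 : (C * b * Λ) ≤ 2 * (r * x) := by
          calc (C * b * Λ) ≤ ((b : ℝ) - a) * x := hx
            _ ≤ (2 * r) * x := mul_le_mul_of_nonneg_right hr2 hx0
            _ = 2 * (r * x) := by ring
        have f8 : 2 * ((6 + 2 * (k + 1) + 2 * mm : ℝ) * (b * q)) ≤ C * b * Λ := by
          have g1 : (6 + 2 * (k + 1) + 2 * mm : ℝ) * (b * q) ≤
              (6 + 2 * (k + 1) + 2 * mm : ℝ) * (b * (A * Λ)) := by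
            refine mul_le_mul_of_nonneg_left ?_ (by positivity)
            exact mul_le_mul_of_nonneg_left hqA hb0
          have g2 : 2 * A * (6 + 2 * (k + 1) + 2 * mm) * (b * Λ) ≤ C * (b * Λ) :=
            mul_le_mul_of_nonneg_right hC (by positivity)
          linarith
        have f9 : (N2 : ℝ) * L = N1 * L + mm * B * L := by rw [hN']; ring
        linarith
    _ = Real.exp (N1 * (L - q)) * Real.exp (N1 * (L - q)) * Real.exp (r * (x - q)) := by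
        rw [Real.exp_add, Real.exp_add]

/-- A power of `1 + log a` is small. -/
theorem ev_log (M : ℝ) (p : ℕ) : ∃ a₀ : ℕ, ∀ a : ℕ, a₀ ≤ a → M * (1 + Real.log a) ^ p ≤ a := by
  have h1 : ∀ᶠ x : ℝ in atTop, ‖Real.log x ^ p‖ ≤ 1 / ((|M| + 1) * 2 ^ p) * ‖id x‖ :=
    (Real.isLittleO_pow_log_id_atTop (n := p)).bound (by positivity)
  have h2 : ∀ᶠ x : ℝ in atTop, 1 ≤ Real.log x := Real.tendsto_log_atTop.eventually_ge_atTop 1
  have h3 : ∀ᶠ x : ℝ in atTop, M * (1 + Real.log x) ^ p ≤ x := by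
    filter_upwards [h1, h2, eventually_ge_atTop (0 : ℝ)] with x hx1 hx2 hx0
    rw [Real.norm_of_nonneg (by positivity), id, Real.norm_of_nonneg hx0] at hx1
    have h5 : (1 + Real.log x) ^ p ≤ (2 * Real.log x) ^ p :=
      pow_le_pow_left₀ (by linarith) (by linarith) _
    have h6 : (0 : ℝ) < (|M| + 1) * 2 ^ p := by positivity
    calc M * (1 + Real.log x) ^ p ≤ (|M| + 1) * (1 + Real.log x) ^ p :=
          mul_le_mul_of_nonneg_right (by linarith [le_abs_self M]) (by positivity)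
      _ ≤ (|M| + 1) * (2 * Real.log x) ^ p := mul_le_mul_of_nonneg_left h5 (by positivity)
      _ = ((|M| + 1) * 2 ^ p) * Real.log x ^ p := by rw [mul_pow]; ring
      _ ≤ ((|M| + 1) * 2 ^ p) * (1 / ((|M| + 1) * 2 ^ p) * x) :=
          mul_le_mul_of_nonneg_left hx1 h6.le
      _ = x := by rw [← mul_assoc, mul_one_div_cancel h6.ne', one_mul]
  have h4 := tendsto_natCast_atTop_atTop.eventually h3
  obtain ⟨a₀, ha₀⟩ := eventually_atTop.1 h4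
  exact ⟨a₀, ha₀⟩

lemma tele (F : ℕ → ℕ) (hF : ∀ k, F (k + 1) ≤ F k) (k m : ℕ) (hk : k ≤ m) :
    (∑ j ∈ Finset.Ioc k m, (F (j - 1) - F j)) + F m = F k := by
  induction m, hk using Nat.le_induction with
  | base => simp
  | succ m hm ih =>
    rw [← Finset.insert_Ioc_right_eq_Ioc_add_one (by omega), Finset.sum_insert (by simp)]
    have h1 := hF m
    have h2 : m + 1 - 1 = m := rfl
    rw [h2]
    omega

lemma sum_swap (g : ℕ → ℕ) (m : ℕ) :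
    ∑ k ∈ Finset.range m, ∑ j ∈ Finset.Ioc k m, g j = ∑ j ∈ Finset.Icc 1 m, j * g j := by
  rw [Finset.sum_comm' (s' := fun j => Finset.range j) (t' := Finset.Icc 1 m)]
  · apply Finset.sum_congr rfl
    intro j _
    rw [Finset.sum_const, Finset.card_range, smul_eq_mul]
  · intro k j
    simp only [Finset.mem_range, Finset.mem_Ioc, Finset.mem_Icc]
    omega

/-- The sequence extended by zero. -/
def ext {m : ℕ} (lam : Fin m → ℕ) (k : ℕ) : ℕ := if h : k < m then lam ⟨k, h⟩ else 0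

lemma ext_anti {m : ℕ} {lam : Fin m → ℕ} (h : Antitone lam) (k : ℕ) :
    ext lam (k + 1) ≤ ext lam k := by
  unfold ext
  split_ifs with h1 h2 h2
  · exact h (by rw [Fin.le_def]; simp)
  · omega
  · omega
  · omega

/-- The gaps. -/
def gap {m : ℕ} (lam : Fin m → ℕ) (j : ℕ) : ℕ := ext lam (j - 1) - ext lam j

lemma ext_eq {m : ℕ} {lam : Fin m → ℕ} (h : Antitone lam) (k : ℕ)
    (hk : k ≤ m) : ∑ j ∈ Finset.Ioc k m, gap lam j = ext lam k := by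
  have h1 := tele (ext lam) (ext_anti h) k m hk
  have h2 : ext lam m = 0 := by simp [ext]
  rw [h2, add_zero] at h1
  exact h1

lemma gw_gap {m : ℕ} {lam : Fin m → ℕ} (h : Antitone lam) : gw m (gap lam) = lam := by
  funext k
  change ∑ j ∈ Finset.Ioc (k : ℕ) m, gap lam j = lam k
  rw [ext_eq h _ k.2.le, ext, dif_pos k.2]

lemma sum_gap {m : ℕ} {lam : Fin m → ℕ} (h : Antitone lam) :
    ∑ j ∈ Finset.Icc 1 m, j * gap lam j = ∑ i, lam i := by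
  rw [← sum_swap, ← Fin.sum_univ_eq_sum_range (fun k => ∑ j ∈ Finset.Ioc k m, gap lam j)]
  apply Finset.sum_congr rfl
  intro k _
  rw [ext_eq h _ k.2.le, ext, dif_pos k.2]

lemma exists_gap {k : ℕ} {lam : Fin (k + 3) → ℕ} (h : Antitone lam) :
    ∃ j, 3 ≤ j ∧ j ≤ k + 3 ∧ lam 2 ≤ (k + 3) * gap lam j := by
  by_contra hcon
  push Not at hcon
  have h1 := ext_eq h 2 (by omega)
  have h2 : ext lam 2 = lam 2 := by
    rw [ext, dif_pos (by omega)]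
    rfl
  rw [h2] at h1
  have h3 : ∑ j ∈ Finset.Ioc 2 (k + 3), (k + 3) * gap lam j <
      ∑ _j ∈ Finset.Ioc 2 (k + 3), lam 2 := by
    apply Finset.sum_lt_sum_of_nonempty
    · exact ⟨3, Finset.mem_Ioc.2 ⟨by omega, by omega⟩⟩
    · intro j hj
      rw [Finset.mem_Ioc] at hj
      exact hcon j (by omega) hj.2
  rw [← Finset.mul_sum, h1, Finset.sum_const, Nat.card_Ioc, smul_eq_mul] at h3
  have h4 : (k + 3 - 2) * lam 2 ≤ (k + 3) * lam 2 := Nat.mul_le_mul_right _ (Nat.sub_le _ _)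
  omega

lemma stageUp {a b k : ℕ} {lam : Fin (k + 3) → ℕ} (hU : UpR) (hanti : Antitone lam)
    (hab : a ≤ b) (ha : (0 : ℝ) < a) : (plethMult a b (k + 3) lam : ℝ) ≤
      4 ^ b * ∏ i : Fin (k + 1), (Real.exp 1 * (1 + (lam i.succ.succ : ℝ) / a)) ^ a := by
  have up0 := hU (k + 1) a b lam hanti
  have ha' : 0 < a := by exact_mod_cast ha
  have e1 : (plethMult a b (k + 3) lam : ℝ) ≤ ((a + b).choose a : ℝ) *
      ∏ i : Fin (k + 1), ((a + lam i.succ.succ).choose (lam i.succ.succ) : ℝ) := by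
    exact_mod_cast up0
  refine e1.trans ?_
  refine mul_le_mul ?_ ?_ (by positivity) (by positivity)
  · have e2 : (a + b).choose a ≤ 4 ^ b := by
      calc (a + b).choose a ≤ 2 ^ (a + b) := Nat.choose_le_two_pow _ _
        _ ≤ 2 ^ (2 * b) := Nat.pow_le_pow_right (by norm_num) (by omega)
        _ = 4 ^ b := by rw [pow_mul]; norm_num
    exact_mod_cast e2
  · exact Finset.prod_le_prod (fun i _ => by positivity) fun i _ =>
      choose_real ha' (lam i.succ.succ)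

lemma stageCh {n a B : ℕ} {Q : ℝ} (hn0 : 0 < n) (hQ6 : 6 ≤ Q) (ha : (1 : ℝ) ≤ a) :
    ((n + n * a).choose n : ℝ) ^ B ≤ (a * Q) ^ (n * B) := by
  have hn0' : (0 : ℝ) < n := by exact_mod_cast hn0
  rw [pow_mul]
  refine pow_le_pow_left₀ (by positivity) ?_ _
  have e1 := choose_real hn0 (n * a)
  have e2 : (n + n * a).choose n = (n + n * a).choose (n * a) := by
    rw [Nat.choose_symm_add]
  rw [e2]
  refine e1.trans ?_
  refine pow_le_pow_left₀ (by positivity) ?_ _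
  have e3 : ((n * a : ℕ) : ℝ) / n = a := by
    push_cast
    field_simp
  rw [e3]
  have e4 := Real.exp_one_lt_d9
  have e5 := Real.exp_pos 1
  calc Real.exp 1 * (1 + (a : ℝ)) ≤ 3 * (2 * a) := by
        refine mul_le_mul (by linarith) (by linarith) (by linarith) (by norm_num)
    _ = a * 6 := by ring
    _ ≤ a * Q := mul_le_mul_of_nonneg_left hQ6 (by linarith)

lemma stageSp {k a : ℕ} {lam : Fin (k + 3) → ℕ} {Q : ℝ} (hQ0 : 0 < Q) :
    ∏ i : Fin (k + 1), (Real.exp 1 * (1 + (lam i.succ.succ : ℝ) / a)) ^ a =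
      (2 * Real.exp 1 * Q) ^ (a * (k + 1)) *
        ∏ i : Fin (k + 1), ((1 + (lam i.succ.succ : ℝ) / a) / (2 * Q)) ^ a := by
  have e1 : ∀ i : Fin (k + 1), (Real.exp 1 * (1 + (lam i.succ.succ : ℝ) / a)) ^ a =
      (2 * Real.exp 1 * Q) ^ a * ((1 + (lam i.succ.succ : ℝ) / a) / (2 * Q)) ^ a := by
    intro i
    rw [← mul_pow]
    congr 1
    field_simp
  rw [Finset.prod_congr rfl fun i _ => e1 i, Finset.prod_mul_distrib, Finset.prod_const,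
    Finset.card_univ, Fintype.card_fin, ← pow_mul]

lemma stageLow {a k n B N1 r : ℕ} {lam f : Fin (k + 3) → ℕ} {Q X : ℝ} (hQ0 : 0 < Q)
    (ha0 : (0 : ℝ) < a) (hX0 : 0 < X) (hN1 : N1 = (n - 2 * (k + 3) - 1) * B) (hr : N1 = a + r)
    (hf1r : ∀ i, (1 : ℝ) ≤ f i) (hrow0 : (a : ℝ) / Q ≤ f 0) (hrow1 : (a : ℝ) / Q ≤ f 1)
    (hrow2 : X / Q ≤ f 2) (hrow' : ∀ i, (1 + (lam i : ℝ) / a) / (2 * Q) ≤ f i) :
    ((a : ℝ) / Q) ^ N1 * ((a : ℝ) / Q) ^ N1 * (X / Q) ^ r *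
      ∏ i : Fin (k + 1), ((1 + (lam i.succ.succ : ℝ) / a) / (2 * Q)) ^ a ≤
      (((∏ i, f i ^ (n - 2 * (k + 3) - 1)) ^ B : ℕ) : ℝ) := by
  obtain ⟨Z, hZ⟩ : ∃ Z : ℝ, Z = ∏ i : Fin (k + 1),
    ((1 + (lam i.succ.succ : ℝ) / a) / (2 * Q)) ^ a := ⟨_, rfl⟩
  have hZ0 : 0 ≤ Z := by rw [hZ]; positivity
  rw [← hZ]
  have e1 : (((∏ i, f i ^ (n - 2 * (k + 3) - 1)) ^ B : ℕ) : ℝ) = ∏ i, (f i : ℝ) ^ N1 := by
    push_cast
    rw [← Finset.prod_pow]
    refine Finset.prod_congr rfl fun i _ => ?_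
    rw [← pow_mul, hN1]
  rw [e1, Fin.prod_univ_succ, Fin.prod_univ_succ]
  have e2 : ∀ i : Fin (k + 1), ((1 + (lam i.succ.succ : ℝ) / a) / (2 * Q)) ^ a *
      (f i.succ.succ : ℝ) ^ r ≤ (f i.succ.succ : ℝ) ^ N1 := by
    intro i
    rw [hr, pow_add]
    have := hrow' i.succ.succ
    gcongr
  have e3 : Z * ∏ i : Fin (k + 1), (f i.succ.succ : ℝ) ^ r ≤
      ∏ i : Fin (k + 1), (f i.succ.succ : ℝ) ^ N1 := by
    rw [hZ, ← Finset.prod_mul_distrib]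
    exact Finset.prod_le_prod (fun i _ => by positivity) fun i _ => e2 i
  have e4 : (X / Q) ^ r ≤ ∏ i : Fin (k + 1), (f i.succ.succ : ℝ) ^ r := by
    rw [Fin.prod_univ_succ]
    have g1 : X / Q ≤ (f (Fin.succ (Fin.succ 0)) : ℝ) := hrow2
    have g2 : (1 : ℝ) ≤ ∏ i : Fin k, (f i.succ.succ.succ : ℝ) ^ r := by
      have g3 : ∏ _i : Fin k, (1 : ℝ) ≤ ∏ i : Fin k, (f i.succ.succ.succ : ℝ) ^ r :=
        Finset.prod_le_prod (fun _ _ => zero_le_one) fun i _ => one_le_pow₀ (hf1r _)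
      rw [Finset.prod_const_one] at g3
      exact g3
    calc (X / Q) ^ r = (X / Q) ^ r * 1 := (mul_one _).symm
      _ ≤ (f (Fin.succ (Fin.succ 0)) : ℝ) ^ r * _ :=
        mul_le_mul (pow_le_pow_left₀ (by positivity) g1 _) g2 zero_le_one (by positivity)
  have e5 : ((a : ℝ) / Q) ^ N1 ≤ (f 0 : ℝ) ^ N1 := pow_le_pow_left₀ (by positivity) hrow0 _
  have e6 : ((a : ℝ) / Q) ^ N1 ≤ (f (Fin.succ 0) : ℝ) ^ N1 :=
    pow_le_pow_left₀ (by positivity) hrow1 _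
  have e7 : (X / Q) ^ r * Z ≤ ∏ i : Fin (k + 1), (f i.succ.succ : ℝ) ^ N1 := by
    refine le_trans ?_ e3
    rw [mul_comm]
    exact mul_le_mul_of_nonneg_left e4 hZ0
  calc ((a : ℝ) / Q) ^ N1 * ((a : ℝ) / Q) ^ N1 * (X / Q) ^ r * Z
      = ((a : ℝ) / Q) ^ N1 * (((a : ℝ) / Q) ^ N1 * ((X / Q) ^ r * Z)) := by ring
    _ ≤ _ := by
      refine mul_le_mul e5 ?_ (by positivity) (by positivity)
      exact mul_le_mul e6 e7 (by positivity) (by positivity)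

/-- The conditions on the number `B` of blocks. -/
lemma stageB {a b n B s k : ℕ} {C L Q P : ℝ} (hab : a ≤ b) (ha3 : (3 : ℝ) ≤ a) (hL1 : 1 ≤ L)
    (hbig : 64 * (2 + L) * Q ^ 2 ≤ a) (hQ6 : 6 ≤ Q) (hP1 : 1 ≤ P) (hP6 : 6 * (k + 3) * P ≤ Q)
    (hnQ : (n : ℝ) ≤ Q) (hLn : L ≤ n) (hn1 : (1 : ℝ) ≤ n) (hbQ : (b : ℝ) ≤ a * Q)
    (h4L : C * b ≤ 4 * L * (b - a)) (hC1 : 1 ≤ C) (hC32 : 32 * (2 * ((k : ℝ) + 3) + 1) ≤ C)
    (hs : s = (b - a) / 8) (hB : B = (b - s) / n) :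
    0 < B ∧ (b : ℝ) ≤ 2 * n * B ∧ (n : ℝ) * B * a + P * a + P * B ≤ a * b ∧
      (k + 3) * (P * ((a : ℝ) + B)) ≤ a * Q ^ 3 ∧ (n : ℝ) * B ≤ b ∧ (B : ℝ) ≤ b ∧
      L * B ≤ b ∧ (a : ℝ) + (b - a) / 2 + (2 * (k + 3) + 1) * B ≤ n * B := by
  have hk0 : (0 : ℝ) ≤ k := Nat.cast_nonneg k
  have ha0 : (0 : ℝ) < a := by linarith
  have habr : (a : ℝ) ≤ b := by exact_mod_cast hab
  have hb0 : (0 : ℝ) < b := by linarith
  have hL0 : 0 < L := by linarith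
  have hQ0 : 0 < Q := by linarith
  have hQ2 : 6 * Q ≤ Q ^ 2 := by
    have := mul_le_mul_of_nonneg_right hQ6 hQ0.le
    calc 6 * Q ≤ Q * Q := this
      _ = Q ^ 2 := by ring
  have hPQ : P ≤ Q := by
    refine le_trans ?_ hP6
    have : 0 ≤ (k : ℝ) * P := by positivity
    linarith
  have hba16 : 16 * Q ^ 2 ≤ (b : ℝ) - a := by
    have e0 : 0 ≤ Q ^ 2 := by positivity
    have e1 : 4 * L * (16 * Q ^ 2) ≤ 4 * L * (b - a) := by
      calc 4 * L * (16 * Q ^ 2) ≤ 64 * (2 + L) * Q ^ 2 := by linarith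
        _ ≤ (a : ℝ) := hbig
        _ ≤ (b : ℝ) := habr
        _ ≤ C * b := le_mul_of_one_le_left hb0.le hC1
        _ ≤ _ := h4L
    exact le_of_mul_le_mul_left e1 (by positivity)
  have hs1 : 8 * s ≤ b - a := by rw [hs]; omega
  have hs2 : b - a < 8 * s + 8 := by rw [hs]; omega
  have hbar : ((b - a : ℕ) : ℝ) = (b : ℝ) - a := Nat.cast_sub hab
  have hs1r : 8 * (s : ℝ) ≤ b - a := by rw [← hbar]; exact_mod_cast hs1
  have hs2r : (b : ℝ) - a < 8 * s + 8 := by rw [← hbar]; exact_mod_cast hs2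
  have hn0 : 0 < n := by
    have : (0 : ℝ) < n := by linarith
    exact_mod_cast this
  have hB1 : n * B ≤ b - s := by rw [hB]; exact Nat.mul_div_le _ _
  have hB2 : b - s < n * B + n := by
    rw [hB]
    have := Nat.lt_mul_div_succ (b - s) hn0
    rw [mul_add, mul_one] at this
    exact this
  have hsb : s ≤ b := by omega
  have hbsr : ((b - s : ℕ) : ℝ) = (b : ℝ) - s := Nat.cast_sub hsb
  have hB1r : (n : ℝ) * B ≤ b - s := by rw [← hbsr]; exact_mod_cast hB1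
  have hB2r : (b : ℝ) - s < n * B + n := by rw [← hbsr]; exact_mod_cast hB2
  have hs0 : (0 : ℝ) ≤ s := Nat.cast_nonneg s
  have hBr0 : (0 : ℝ) ≤ B := Nat.cast_nonneg B
  have hnBb : (n : ℝ) * B ≤ b := by linarith
  have hBn : (B : ℝ) ≤ n * B := le_mul_of_one_le_left hBr0 hn1
  have hBb : (B : ℝ) ≤ b := hBn.trans hnBb
  have hQ20 : 0 ≤ Q ^ 2 := by positivity
  have hLQ : 0 ≤ L * Q ^ 2 := by positivity
  have hQ64 : 64 * Q ≤ a := by linarith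
  have hLB : L * B ≤ b := (mul_le_mul_of_nonneg_right hLn hBr0).trans hnBb
  refine ⟨?_, ?_, ?_, ?_, hnBb, hBb, hLB, ?_⟩
  · rcases Nat.eq_zero_or_pos B with h | h
    · exfalso
      rw [h, Nat.cast_zero, mul_zero, zero_add] at hB2r
      linarith
    · exact h
  · have : (b : ℝ) ≤ 2 * (n * B) := by linarith
    linarith
  · have e1 : P * B ≤ a * Q ^ 2 := by
      calc P * B ≤ Q * (a * Q) :=
            mul_le_mul hPQ (hBb.trans hbQ) hBr0 hQ0.le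
        _ = _ := by ring
    have e2 : P * a ≤ a * Q := by
      rw [mul_comm]
      exact mul_le_mul_of_nonneg_left hPQ ha0.le
    have e3 : (n : ℝ) * B + Q + Q ^ 2 ≤ b := by linarith
    have e4 : a * ((n : ℝ) * B + Q + Q ^ 2) ≤ a * b := mul_le_mul_of_nonneg_left e3 ha0.le
    linarith
  · calc (k + 3) * (P * ((a : ℝ) + B)) = ((k + 3) * P) * (a + B) := by ring
      _ ≤ Q * (a + a * Q) := by
        refine mul_le_mul ?_ ?_ (by positivity) hQ0.le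
        · have : 0 ≤ (k + 3) * P := by positivity
          linarith
        · linarith
      _ = a * (Q + Q ^ 2) := by ring
      _ ≤ a * Q ^ 3 := by
        refine mul_le_mul_of_nonneg_left ?_ ha0.le
        have e1 : 6 * Q ^ 2 ≤ Q ^ 3 := by
          calc 6 * Q ^ 2 ≤ Q * Q ^ 2 := mul_le_mul_of_nonneg_right hQ6 hQ20
            _ = Q ^ 3 := by ring
        linarith
  · have hmmB : (2 * ((k : ℝ) + 3) + 1) * B ≤ (b - a) / 8 := by
      have e1 : L * ((2 * ((k : ℝ) + 3) + 1) * B) ≤ L * ((b - a) / 8) := by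
        calc L * ((2 * ((k : ℝ) + 3) + 1) * B) = (2 * ((k : ℝ) + 3) + 1) * (L * B) := by ring
          _ ≤ (2 * ((k : ℝ) + 3) + 1) * b := mul_le_mul_of_nonneg_left hLB (by positivity)
          _ ≤ (C * b) / 32 := by
            have := mul_le_mul_of_nonneg_right hC32 hb0.le
            linarith
          _ ≤ _ := by linarith
      exact le_of_mul_le_mul_left e1 hL0
    linarith

/-- The rows and the final comparison. -/
lemma stageC {a b k n B D0 : ℕ} {lam : Fin (k + 3) → ℕ} {C₀ C L Q P Y q x X A Λ : ℝ}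
    (hU : UpR) (hanti : Antitone lam) (hsum : ∑ i, lam i = a * b) (hab : a ≤ b)
    (ha3 : (3 : ℝ) ≤ a) (hC₀ : 1 ≤ C₀) (hY1 : 1 ≤ Y) (hQ6 : 6 ≤ Q) (hP : P = (n : ℝ) ^ D0)
    (hP1 : 1 ≤ P) (hP6 : 6 * (k + 3) * P ≤ Q) (hr1 : 2 * C₀ ^ 2 * Y ^ 2 * P ≤ Q)
    (hr2 : 2 * P * C₀ * Y ≤ Q) (hbC : (b : ℝ) ≤ C₀ * a * Y) (hbQ : (b : ℝ) ≤ a * Q)
    (h1 : (a : ℝ) ^ 2 ≤ C₀ * Y * lam 1) (hn4 : 4 * (k + 3) + 4 ≤ n) (hBpos : 0 < B)
    (hnBb : (n : ℝ) * B ≤ b) (hBb : (B : ℝ) ≤ b) (hLB : L * B ≤ b)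
    (hN : (a : ℝ) + (b - a) / 2 + (2 * (k + 3) + 1) * B ≤ n * B)
    (hexpL : Real.exp L = a) (hexpq : Real.exp q = Q) (hexpx : Real.exp x = X)
    (hX : X = (lam 2 : ℝ) / a) (hq1 : 1 ≤ q) (hqA : q ≤ A * Λ) (hΛ : 0 ≤ Λ) (hx : 0 ≤ x)
    (h2 : C * b * Λ ≤ ((b : ℝ) - a) * x)
    (hCA2 : 2 * A * (6 + 2 * ((k : ℝ) + 1) + 2 * (2 * (k + 3) + 1)) ≤ C)
    (low : (∏ i : Fin (k + 3), max 1 (lam i / (n ^ D0 * B)) ^ (n - 2 * (k + 3) - 1)) ^ B ≤
      (n * B).factorial * (n + n * a).choose n ^ B * plethMult b a (k + 3) lam) :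
    plethMult a b (k + 3) lam ≤ plethMult b a (k + 3) lam := by
  classical
  have hk0 : (0 : ℝ) ≤ k := Nat.cast_nonneg k
  have ha0 : (0 : ℝ) < a := by linarith
  have habr : (a : ℝ) ≤ b := by exact_mod_cast hab
  have hb0 : (0 : ℝ) < b := by linarith
  have hQ0 : 0 < Q := by linarith
  have hn0 : 0 < n := by omega
  have hX0 : 0 < X := by rw [← hexpx]; exact Real.exp_pos _
  have hBr1 : (1 : ℝ) ≤ B := by exact_mod_cast hBpos
  -- the rows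
  obtain ⟨f, hf⟩ : ∃ f : Fin (k + 3) → ℕ, f = fun i => max 1 (lam i / (n ^ D0 * B)) := ⟨_, rfl⟩
  have hf1 : ∀ i, 1 ≤ f i := fun i => by rw [hf]; exact le_max_left _ _
  have hf1r : ∀ i, (1 : ℝ) ≤ f i := fun i => by exact_mod_cast hf1 i
  have hfl : ∀ i, (lam i : ℝ) ≤ 2 * (P * b) * f i := by
    intro i
    have e0 : 0 < n ^ D0 * B := Nat.mul_pos (pow_pos hn0 _) hBpos
    have e1 := floor_real (u := lam i) e0
    have e2 : ((n ^ D0 * B : ℕ) : ℝ) = P * B := by rw [hP]; push_cast; ring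
    rw [e2] at e1
    have e3 : (f i : ℝ) = (max 1 (lam i / (n ^ D0 * B)) : ℕ) := by rw [hf]
    rw [← e3] at e1
    refine e1.trans ?_
    have := hf1r i
    gcongr
  have hrow0 : (a : ℝ) / Q ≤ f 0 := by
    rw [div_le_iff₀ hQ0]
    have e1 : (a : ℝ) * b ≤ (k + 3) * lam 0 := by
      have : a * b ≤ (k + 3) * lam 0 := by
        rw [← hsum]
        calc ∑ i, lam i ≤ ∑ _i : Fin (k + 3), lam 0 :=
              Finset.sum_le_sum fun i _ => hanti (Fin.zero_le i)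
          _ = (k + 3) * lam 0 := by
            rw [Finset.sum_const, Finset.card_univ, Fintype.card_fin, smul_eq_mul]
      exact_mod_cast this
    have e2 : (b : ℝ) * a ≤ b * (f 0 * Q) := by
      calc (b : ℝ) * a = a * b := mul_comm _ _
        _ ≤ (k + 3) * lam 0 := e1
        _ ≤ (k + 3) * (2 * (P * b) * f 0) := mul_le_mul_of_nonneg_left (hfl 0) (by positivity)
        _ = b * (f 0 * (2 * ((k + 3) * P))) := by ring
        _ ≤ b * (f 0 * Q) := by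
          have : 0 ≤ (k + 3) * P := by positivity
          gcongr
          linarith
    exact le_of_mul_le_mul_left e2 hb0
  have hrow1 : (a : ℝ) / Q ≤ f 1 := by
    rw [div_le_iff₀ hQ0]
    have e2 : (a : ℝ) * a ≤ a * (f 1 * Q) := by
      calc (a : ℝ) * a = a ^ 2 := by ring
        _ ≤ C₀ * Y * lam 1 := h1
        _ ≤ C₀ * Y * (2 * (P * b) * f 1) := mul_le_mul_of_nonneg_left (hfl 1) (by positivity)
        _ ≤ C₀ * Y * (2 * (P * (C₀ * a * Y)) * f 1) := by gcongr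
        _ = a * (f 1 * (2 * C₀ ^ 2 * Y ^ 2 * P)) := by ring
        _ ≤ a * (f 1 * Q) := by gcongr
    exact le_of_mul_le_mul_left e2 ha0
  have hrow : ∀ i, (lam i : ℝ) / a ≤ f i * Q := by
    intro i
    rw [div_le_iff₀ ha0]
    calc (lam i : ℝ) ≤ 2 * (P * b) * f i := hfl i
      _ ≤ 2 * (P * (C₀ * a * Y)) * f i := by gcongr
      _ = f i * (2 * P * C₀ * Y) * a := by ring
      _ ≤ f i * Q * a := by gcongr
  have hrow' : ∀ i, (1 + (lam i : ℝ) / a) / (2 * Q) ≤ f i := by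
    intro i
    rw [div_le_iff₀ (by positivity)]
    have e1 := hrow i
    have e2 : 1 ≤ (f i : ℝ) * Q := by
      have := mul_le_mul (hf1r i) hQ6 (by norm_num) (by linarith [hf1r i])
      linarith
    linarith
  -- the exponents
  obtain ⟨N1, hN1⟩ : ∃ N1 : ℕ, N1 = (n - 2 * (k + 3) - 1) * B := ⟨_, rfl⟩
  have hN2 : n * B = N1 + (2 * (k + 3) + 1) * B := by
    rw [hN1, ← add_mul]
    congr 1
    omega
  have hN2r : (n : ℝ) * B = N1 + (2 * (k + 3) + 1) * B := by exact_mod_cast hN2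
  have hN1a : (a : ℝ) + (b - a) / 2 ≤ N1 := by linarith
  have hN1n : a ≤ N1 := by
    have : (a : ℝ) ≤ N1 := by linarith
    exact_mod_cast this
  obtain ⟨r, hr⟩ : ∃ r : ℕ, N1 = a + r := ⟨N1 - a, by omega⟩
  have hrr : (N1 : ℝ) = a + r := by rw [hr]; push_cast; ring
  have hnBbn : n * B ≤ b := by exact_mod_cast hnBb
  have fin := final_real (L := L) (q := q) (x := x) (C := C) (A := A) (Λ := Λ) (a := a) (b := b)
    (k := k) (N1 := N1) (N2 := n * B) (B := B) (mm := 2 * (k + 3) + 1) (r := r) hq1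
    (by rw [hexpq]; linarith) (by rw [hexpq]; linarith [Real.exp_one_lt_d9]) hqA hab hN2 hnBbn hr
    (by linarith) hLB hx h2 (by push_cast; exact hCA2) hΛ
  rw [hexpL, hexpq, hexpx] at fin
  -- the upper bound
  have up := stageUp (a := a) (b := b) (lam := lam) hU hanti hab (by linarith)
  have hfacB : ((n * B).factorial : ℝ) ≤ (a * Q) ^ (n * B) := by
    calc ((n * B).factorial : ℝ) ≤ ((n * B : ℕ) : ℝ) ^ (n * B) := by
          exact_mod_cast Nat.factorial_le_pow (n * B)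
      _ ≤ (a * Q) ^ (n * B) := by
        refine pow_le_pow_left₀ (by positivity) ?_ _
        push_cast
        linarith
  have hchB := stageCh (n := n) (a := a) (B := B) hn0 hQ6 (by linarith)
  -- the lower bound
  obtain ⟨Z, hZ⟩ : ∃ Z : ℝ, Z = ∏ i : Fin (k + 1),
    ((1 + (lam i.succ.succ : ℝ) / a) / (2 * Q)) ^ a := ⟨_, rfl⟩
  have hZ0 : 0 ≤ Z := by rw [hZ]; positivity
  have hsplit := stageSp (k := k) (lam := lam) (a := a) hQ0
  rw [← hZ] at hsplit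
  have hlow : ((a : ℝ) / Q) ^ N1 * ((a : ℝ) / Q) ^ N1 * (X / Q) ^ r * Z ≤
      (((∏ i, f i ^ (n - 2 * (k + 3) - 1)) ^ B : ℕ) : ℝ) := by
    rw [hZ]
    exact stageLow hQ0 ha0 hX0 hN1 hr hf1r hrow0 hrow1
      (by rw [hX, div_le_iff₀ hQ0]; exact hrow 2) hrow'
  have lowr : (((∏ i, f i ^ (n - 2 * (k + 3) - 1)) ^ B : ℕ) : ℝ) ≤
      ((n * B).factorial : ℝ) * ((n + n * a).choose n : ℝ) ^ B *
        (plethMult b a (k + 3) lam : ℝ) := by
    rw [hf]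
    exact_mod_cast low
  -- all together
  have hall : ((n * B).factorial : ℝ) * ((n + n * a).choose n : ℝ) ^ B *
      (plethMult a b (k + 3) lam : ℝ) ≤
      ((n * B).factorial : ℝ) * ((n + n * a).choose n : ℝ) ^ B *
        (plethMult b a (k + 3) lam : ℝ) := by
    calc ((n * B).factorial : ℝ) * ((n + n * a).choose n : ℝ) ^ B *
          (plethMult a b (k + 3) lam : ℝ)
        ≤ ((a * Q) ^ (n * B) * (a * Q) ^ (n * B)) *
          (4 ^ b * ((2 * Real.exp 1 * Q) ^ (a * (k + 1)) * Z)) := by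
          rw [← hsplit]
          refine mul_le_mul ?_ up (by positivity) (by positivity)
          exact mul_le_mul hfacB hchB (by positivity) (by positivity)
      _ = ((4 : ℝ) ^ b * (2 * Real.exp 1 * Q) ^ (a * (k + 1)) *
          ((a * Q) ^ (n * B) * (a * Q) ^ (n * B))) * Z := by ring
      _ ≤ (((a : ℝ) / Q) ^ N1 * ((a : ℝ) / Q) ^ N1 * (X / Q) ^ r) * Z :=
          mul_le_mul_of_nonneg_right fin hZ0
      _ ≤ _ := hlow
      _ ≤ _ := lowr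
  have hK0 : (0 : ℝ) < ((n * B).factorial : ℝ) * ((n + n * a).choose n : ℝ) ^ B := by
    have e1 : 0 < (n * B).factorial := Nat.factorial_pos _
    have e2 : 0 < (n + n * a).choose n := Nat.choose_pos (by omega)
    positivity
  have := le_of_mul_le_mul_left hall hK0
  exact_mod_cast this

/-- The polylogarithm `Q`. -/
lemma stageQ {a E A1 c₀ : ℕ} {A0 c1 C₀ kk : ℝ} (hC₀ : 1 ≤ C₀) (hkk : 3 ≤ kk) (hc1 : 1 ≤ c1)
    (hA0 : A0 = 6 * kk * C₀ ^ 2 * c1 ^ (E + 1)) (hA1 : A1 = 2 * c₀ + E + 1)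
    (ha3 : (3 : ℝ) ≤ a)
    (hbig0 : 64 * A0 ^ 2 * 2 ^ (2 * A1 + 1) * (1 + Real.log a) ^ (2 * A1 + 1) ≤ a) :
    ∃ L Λ Q q : ℝ, L = Real.log a ∧ Λ = Real.log (2 + L) ∧ Q = A0 * (2 + L) ^ A1 ∧
      Real.exp L = a ∧ Real.exp q = Q ∧ 1 ≤ L ∧ 1 / 2 ≤ Λ ∧ 6 ≤ Q ∧ 1 ≤ q ∧
      q ≤ (2 * Real.log A0 + A1) * Λ ∧ 64 * (2 + L) * Q ^ 2 ≤ a := by
  have ha0 : (0 : ℝ) < a := by linarith
  have hA06 : 6 ≤ A0 := by
    rw [hA0]
    calc (6 : ℝ) = 6 * 1 * 1 ^ 2 * 1 ^ (E + 1) := by norm_num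
      _ ≤ 6 * kk * C₀ ^ 2 * c1 ^ (E + 1) := by
        gcongr
        linarith
  have hlA0 : 0 ≤ Real.log A0 := Real.log_nonneg (by linarith)
  obtain ⟨L, hLd⟩ : ∃ L : ℝ, L = Real.log a := ⟨_, rfl⟩
  rw [← hLd] at hbig0
  have hexpL : Real.exp L = a := by rw [hLd]; exact Real.exp_log ha0
  have hL1 : 1 ≤ L := by
    rw [hLd, Real.le_log_iff_exp_le ha0]
    linarith [Real.exp_one_lt_d9]
  obtain ⟨Λ, hΛd⟩ : ∃ Λ : ℝ, Λ = Real.log (2 + L) := ⟨_, rfl⟩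
  have hΛ : 1 / 2 ≤ Λ := by
    have e1 : Real.log 2 ≤ Real.log (2 + L) := Real.log_le_log (by norm_num) (by linarith)
    rw [hΛd]
    linarith [Real.log_two_gt_d9]
  obtain ⟨Q, hQ⟩ : ∃ Q : ℝ, Q = A0 * (2 + L) ^ A1 := ⟨_, rfl⟩
  have hQ6 : 6 ≤ Q := by
    rw [hQ]
    calc (6 : ℝ) = 6 * 1 := by norm_num
      _ ≤ A0 * (2 + L) ^ A1 :=
        mul_le_mul hA06 (one_le_pow₀ (by linarith)) (by norm_num) (by linarith)
  have hQ0 : 0 < Q := by linarith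
  refine ⟨L, Λ, Q, Real.log Q, hLd, hΛd, hQ, hexpL, Real.exp_log hQ0, hL1, hΛ, hQ6, ?_, ?_, ?_⟩
  · rw [Real.le_log_iff_exp_le hQ0]
    linarith [Real.exp_one_lt_d9]
  · have e1 : Real.log Q = Real.log A0 + A1 * Λ := by
      rw [hQ, Real.log_mul (by linarith) (by positivity), Real.log_pow, hΛd]
    have e2 : Real.log A0 * (1 / 2) ≤ Real.log A0 * Λ := mul_le_mul_of_nonneg_left hΛ hlA0
    rw [e1]
    linarith
  · refine le_trans ?_ hbig0
    calc 64 * (2 + L) * Q ^ 2 = 64 * A0 ^ 2 * (2 + L) ^ (2 * A1 + 1) := by rw [hQ]; ring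
      _ ≤ 64 * A0 ^ 2 * (2 * (1 + L)) ^ (2 * A1 + 1) := by
        gcongr
        linarith
      _ = _ := by rw [mul_pow]; ring

/-- The size of a block. -/
lemma stageN {k c1 : ℕ} {L : ℝ} (hL1 : 1 ≤ L)
    (hc1 : c1 = (k + 3).factorial * (4 * (k + 3) + 6)) :
    ∃ n : ℕ, (k + 3).factorial ∣ n ∧ 4 * (k + 3) + 4 ≤ n ∧ L ≤ n ∧ (n : ℝ) ≤ c1 * (2 + L) := by
  have hfac1 : 1 ≤ (k + 3).factorial := Nat.factorial_pos _
  refine ⟨(k + 3).factorial * (⌈L⌉₊ + 4 * (k + 3) + 4), dvd_mul_right _ _, ?_, ?_, ?_⟩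
  · calc 4 * (k + 3) + 4 ≤ 1 * (⌈L⌉₊ + 4 * (k + 3) + 4) := by omega
      _ ≤ _ := Nat.mul_le_mul_right _ hfac1
  · have e1 : (⌈L⌉₊ : ℕ) ≤ (k + 3).factorial * (⌈L⌉₊ + 4 * (k + 3) + 4) := by
      calc ⌈L⌉₊ ≤ 1 * (⌈L⌉₊ + 4 * (k + 3) + 4) := by omega
        _ ≤ _ := Nat.mul_le_mul_right _ hfac1
    exact (Nat.le_ceil L).trans (by exact_mod_cast e1)
  · have e1 : (⌈L⌉₊ : ℝ) < L + 1 := Nat.ceil_lt_add_one (by linarith)
    have hk0 : (0 : ℝ) ≤ k := Nat.cast_nonneg k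
    have e3 : 0 ≤ (k : ℝ) * L := by positivity
    have e2 : ((⌈L⌉₊ : ℝ) + 4 * (k + 3) + 4) ≤ (4 * (k + 3) + 6) * (2 + L) := by linarith
    rw [hc1]
    push_cast
    rw [mul_assoc]
    exact mul_le_mul_of_nonneg_left e2 (by positivity)

/-- The constants are below `Q`. -/
lemma stageP {n E A1 c₀ Dj : ℕ} {A0 c1 C₀ kk L Q P Y : ℝ} (hC₀ : 1 ≤ C₀) (hkk : 3 ≤ kk)
    (hc1 : 1 ≤ c1) (hA0 : A0 = 6 * kk * C₀ ^ 2 * c1 ^ (E + 1)) (hA1 : A1 = 2 * c₀ + E + 1)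
    (hL1 : 1 ≤ L) (hQ : Q = A0 * (2 + L) ^ A1) (hn1 : (1 : ℝ) ≤ n) (hnc : (n : ℝ) ≤ c1 * (2 + L))
    (hDE : Dj ≤ E) (hP : P = (n : ℝ) ^ Dj) (hY : Y = (1 + L) ^ c₀) :
    1 ≤ P ∧ 1 ≤ Y ∧ 6 * kk * P ≤ Q ∧ (n : ℝ) ≤ Q ∧ C₀ * Y ≤ Q ∧ 2 * C₀ ^ 2 * Y ^ 2 * P ≤ Q ∧
      2 * P * C₀ * Y ≤ Q := by
  have hP1 : 1 ≤ P := by rw [hP]; exact one_le_pow₀ hn1
  have hY1 : 1 ≤ Y := by rw [hY]; exact one_le_pow₀ (by linarith)
  have hPn : 6 * kk * C₀ ^ 2 * Y ^ 2 * (P * n) ≤ Q := by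
    have e1 : P * n ≤ c1 ^ (E + 1) * (2 + L) ^ (E + 1) := by
      calc P * n = (n : ℝ) ^ (Dj + 1) := by rw [hP, pow_succ]
        _ ≤ (n : ℝ) ^ (E + 1) := pow_le_pow_right₀ hn1 (Nat.succ_le_succ hDE)
        _ ≤ (c1 * (2 + L)) ^ (E + 1) := pow_le_pow_left₀ (by positivity) hnc _
        _ = _ := mul_pow _ _ _
    have e2 : Y ^ 2 ≤ (2 + L) ^ (2 * c₀) := by
      calc Y ^ 2 = (1 + L) ^ (2 * c₀) := by rw [hY, ← pow_mul, mul_comm]
        _ ≤ _ := pow_le_pow_left₀ (by linarith) (by linarith) _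
    calc 6 * kk * C₀ ^ 2 * Y ^ 2 * (P * n)
        ≤ 6 * kk * C₀ ^ 2 * (2 + L) ^ (2 * c₀) *
          (c1 ^ (E + 1) * (2 + L) ^ (E + 1)) := by gcongr
      _ = Q := by
        rw [hQ, hA0, hA1]
        ring
  have e1 : C₀ ≤ C₀ ^ 2 := by
    calc C₀ = C₀ * 1 := (mul_one _).symm
      _ ≤ C₀ * C₀ := mul_le_mul_of_nonneg_left hC₀ (by linarith)
      _ = C₀ ^ 2 := by ring
  have e2 : Y ≤ Y ^ 2 := by
    calc Y = Y * 1 := (mul_one _).symm
      _ ≤ Y * Y := mul_le_mul_of_nonneg_left hY1 (by linarith)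
      _ = Y ^ 2 := by ring
  have hP6 : 6 * kk * P ≤ Q := by
    refine le_trans ?_ hPn
    calc 6 * kk * P = 6 * kk * 1 ^ 2 * 1 ^ 2 * (P * 1) := by ring
      _ ≤ _ := by gcongr
  have hnQ : (n : ℝ) ≤ Q := by
    refine le_trans ?_ hPn
    calc (n : ℝ) = 1 * 1 ^ 2 * 1 ^ 2 * (1 * n) := by ring
      _ ≤ _ := by
        gcongr
        linarith
  have hCYQ : C₀ * Y ≤ Q := by
    refine le_trans ?_ hPn
    calc C₀ * Y = 1 * C₀ * Y * (1 * 1) := by ring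
      _ ≤ _ := by
        gcongr
        linarith
  have hr1 : 2 * C₀ ^ 2 * Y ^ 2 * P ≤ Q := by
    refine le_trans ?_ hPn
    calc 2 * C₀ ^ 2 * Y ^ 2 * P = 2 * C₀ ^ 2 * Y ^ 2 * (P * 1) := by ring
      _ ≤ _ := by
        gcongr
        linarith
  have hr2 : 2 * P * C₀ * Y ≤ Q := by
    refine le_trans ?_ hr1
    calc 2 * P * C₀ * Y = 2 * C₀ * Y * P := by ring
      _ ≤ _ := by gcongr
  exact ⟨hP1, hY1, hP6, hnQ, hCYQ, hr1, hr2⟩

/-- The third row. -/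
lemma stageX {a b l2 : ℕ} {C L Λ Q q A X x : ℝ} (ha3 : (3 : ℝ) ≤ a) (hab : a ≤ b) (hC1 : 1 ≤ C)
    (hL1 : 1 ≤ L) (hΛ : 1 / 2 ≤ Λ) (hexpL : Real.exp L = a) (hexpq : Real.exp q = Q)
    (hQa : Q ≤ a) (hQ0 : 0 < Q) (hbQ : (b : ℝ) ≤ a * Q) (hqA : q ≤ A * Λ) (hCA3 : 3 * A ≤ C)
    (hX : X = (l2 : ℝ) / a) (hlb : l2 ≤ a * b) (hxd : x = Real.log X)
    (h2 : C * b * Λ ≤ ((b : ℝ) - a) * x) :
    0 ≤ x ∧ Real.exp x = X ∧ Q ^ 3 ≤ X ∧ C * b ≤ 4 * L * (b - a) := by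
  have ha0 : (0 : ℝ) < a := by linarith
  have habr : (a : ℝ) ≤ b := by exact_mod_cast hab
  have hb0 : (0 : ℝ) < b := by linarith
  have hpos : 0 < C * b * Λ := by positivity
  have hxpos : 0 < x := by
    by_contra hcon
    rw [not_lt] at hcon
    have : ((b : ℝ) - a) * x ≤ 0 := mul_nonpos_of_nonneg_of_nonpos (by linarith) hcon
    linarith
  have hXnn : 0 ≤ X := by rw [hX]; positivity
  have hX0 : 0 < X := by
    rcases hXnn.eq_or_lt with h | h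
    · rw [hxd, ← h, Real.log_zero] at hxpos
      exact absurd hxpos (lt_irrefl _)
    · exact h
  have hexpx : Real.exp x = X := by rw [hxd]; exact Real.exp_log hX0
  have hxC : C * Λ ≤ x := by
    have e0 : 0 ≤ (a : ℝ) * x := by positivity
    have e1 : b * (C * Λ) ≤ b * x := by linarith
    exact le_of_mul_le_mul_left e1 hb0
  have hx3 : 3 * q ≤ x := by
    have e1 : 3 * A * Λ ≤ C * Λ := mul_le_mul_of_nonneg_right hCA3 (by linarith)
    linarith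
  have hXQ3 : Q ^ 3 ≤ X := by
    rw [← hexpx, ← hexpq, ← Real.exp_nat_mul]
    apply Real.exp_le_exp.2
    push_cast
    exact hx3
  have hX2 : X ≤ (a : ℝ) * a := by
    have e1 : X ≤ b := by
      rw [hX, div_le_iff₀ ha0]
      have : (l2 : ℝ) ≤ a * b := by exact_mod_cast hlb
      linarith
    have e2 : (a : ℝ) * Q ≤ a * a := mul_le_mul_of_nonneg_left hQa ha0.le
    linarith
  have hx2L : x ≤ 2 * L := by
    rw [← Real.exp_le_exp, hexpx, two_mul, Real.exp_add, hexpL]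
    exact hX2
  refine ⟨hxpos.le, hexpx, hXQ3, ?_⟩
  have e1 : ((b : ℝ) - a) * x ≤ (b - a) * (2 * L) :=
    mul_le_mul_of_nonneg_left hx2L (by linarith)
  have e2 : C * b * (1 / 2) ≤ C * b * Λ := mul_le_mul_of_nonneg_left hΛ (by positivity)
  linarith

/-- **(P3)** the numbers. -/
theorem coreP (hL : LowP) (hU : UpR) : CoreP := by
  classical
  intro k c₀ C₀ hC₀
  choose! D hD using hL (k + 3)
  obtain ⟨E, hE⟩ : ∃ E, E = ∑ j ∈ Finset.range (k + 4), D j := ⟨_, rfl⟩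
  have hDE : ∀ j, j ≤ k + 3 → D j ≤ E := fun j hj => by
    rw [hE]
    exact Finset.single_le_sum (f := D) (fun _ _ => Nat.zero_le _)
      (Finset.mem_range.2 (by omega))
  obtain ⟨c1, hc1⟩ : ∃ c1 : ℕ, c1 = (k + 3).factorial * (4 * (k + 3) + 6) := ⟨_, rfl⟩
  have hc1p : 1 ≤ c1 := by
    rw [hc1]
    exact Nat.mul_pos (Nat.factorial_pos _) (by omega)
  have hc1r : (1 : ℝ) ≤ c1 := by exact_mod_cast hc1p
  have hk0 : (0 : ℝ) ≤ k := Nat.cast_nonneg k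
  have hkk : (3 : ℝ) ≤ (k : ℝ) + 3 := by linarith
  obtain ⟨A0, hA0⟩ : ∃ A0 : ℝ, A0 = 6 * ((k : ℝ) + 3) * C₀ ^ 2 * (c1 : ℝ) ^ (E + 1) := ⟨_, rfl⟩
  have hA06 : 1 ≤ A0 := by
    rw [hA0]
    calc (1 : ℝ) = 1 * 1 ^ 2 * 1 ^ (E + 1) := by norm_num
      _ ≤ 6 * ((k : ℝ) + 3) * C₀ ^ 2 * (c1 : ℝ) ^ (E + 1) := by
        gcongr
        linarith
  obtain ⟨A1, hA1⟩ : ∃ A1 : ℕ, A1 = 2 * c₀ + E + 1 := ⟨_, rfl⟩
  obtain ⟨A, hA⟩ : ∃ A : ℝ, A = 2 * Real.log A0 + A1 := ⟨_, rfl⟩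
  have hlA0 : 0 ≤ Real.log A0 := Real.log_nonneg hA06
  have hAnn : 0 ≤ A := by rw [hA]; positivity
  obtain ⟨a₀, ha₀⟩ := ev_log (64 * A0 ^ 2 * 2 ^ (2 * A1 + 1)) (2 * A1 + 1)
  obtain ⟨C, hC⟩ : ∃ C : ℝ, C = 1 + 3 * A + 2 * A * (6 + 2 * (k + 1) + 2 * (2 * (k + 3) + 1)) +
    32 * (2 * (k + 3) + 1) + a₀ + 3 := ⟨_, rfl⟩
  have hz1 : 0 ≤ 2 * A * (6 + 2 * ((k : ℝ) + 1) + 2 * (2 * (k + 3) + 1)) := by positivity
  have hz2 : (0 : ℝ) ≤ a₀ := Nat.cast_nonneg a₀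
  have hC1 : 1 ≤ C := by rw [hC]; linarith
  have hCA3 : 3 * A ≤ C := by rw [hC]; linarith
  have hCA2 : 2 * A * (6 + 2 * ((k : ℝ) + 1) + 2 * (2 * (k + 3) + 1)) ≤ C := by
    rw [hC]; linarith
  have hC32 : 32 * (2 * ((k : ℝ) + 3) + 1) ≤ C := by rw [hC]; linarith
  have hCa0 : (a₀ : ℝ) + 3 ≤ C := by rw [hC]; linarith
  clear hC hz1
  refine ⟨C, by linarith, ?_⟩
  intro a b lam hanti hsum haC hab hbC h1 h2
  have haa : a₀ ≤ a := by
    have : (a₀ : ℝ) ≤ a := by linarith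
    exact_mod_cast this
  have ha3 : (3 : ℝ) ≤ a := by linarith
  obtain ⟨L, Λ, Q, q, hLd, hΛd, hQ, hexpL, hexpq, hL1, hΛ, hQ6, hq1, hqA, hbig⟩ :=
    stageQ (a := a) hC₀ hkk hc1r hA0 hA1 ha3 (ha₀ a haa)
  rw [← hLd] at hbC h1 h2
  rw [← hΛd] at h2
  rw [← hA] at hqA
  have hQ0 : 0 < Q := by linarith
  obtain ⟨n, hdvd, hn4, hLn, hnc⟩ := stageN (k := k) hL1 hc1
  have hn1 : (1 : ℝ) ≤ n := by linarith
  obtain ⟨j, hj3, hjm, hgj⟩ := exists_gap hanti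
  obtain ⟨P, hP⟩ : ∃ P : ℝ, P = (n : ℝ) ^ D j := ⟨_, rfl⟩
  obtain ⟨Y, hY⟩ : ∃ Y : ℝ, Y = (1 + L) ^ c₀ := ⟨_, rfl⟩
  rw [← hY] at hbC h1
  obtain ⟨hP1, hY1, hP6, hnQ, hCYQ, hr1, hr2⟩ :=
    stageP hC₀ hkk hc1r hA0 hA1 hL1 hQ hn1 hnc (hDE j hjm) hP hY
  have ha0 : (0 : ℝ) < a := by linarith
  have hbQ : (b : ℝ) ≤ a * Q := by
    calc (b : ℝ) ≤ C₀ * a * Y := hbC
      _ = a * (C₀ * Y) := by ring
      _ ≤ _ := mul_le_mul_of_nonneg_left hCYQ ha0.le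
  have hQQ : 6 * Q ≤ Q ^ 2 := by
    calc 6 * Q ≤ Q * Q := mul_le_mul_of_nonneg_right hQ6 hQ0.le
      _ = Q ^ 2 := by ring
  have hLQ : 0 ≤ L * Q ^ 2 := by positivity
  have hQa : Q ≤ a := by linarith
  obtain ⟨X, hX⟩ : ∃ X : ℝ, X = (lam 2 : ℝ) / a := ⟨_, rfl⟩
  obtain ⟨x, hxd⟩ : ∃ x : ℝ, x = Real.log X := ⟨_, rfl⟩
  rw [← hX, ← hxd] at h2
  have hlamb : lam 2 ≤ a * b := by
    rw [← hsum]
    exact Finset.single_le_sum (f := lam) (fun _ _ => Nat.zero_le _) (Finset.mem_univ _)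
  obtain ⟨hx0, hexpx, hXQ3, h4L⟩ := stageX ha3 hab hC1 hL1 hΛ hexpL hexpq hQa hQ0 hbQ hqA hCA3
    hX hlamb hxd h2
  obtain ⟨s, hs⟩ : ∃ s : ℕ, s = (b - a) / 8 := ⟨_, rfl⟩
  obtain ⟨B, hB⟩ : ∃ B : ℕ, B = (b - s) / n := ⟨_, rfl⟩
  obtain ⟨hBpos, c3, c4, c5, hnBb, hBb, hLB, hN⟩ := stageB hab ha3 hL1 hbig hQ6 hP1 hP6 hnQ hLn
    hn1 hbQ h4L hC1 hC32 hs hB
  have cond1 : n ^ D j ≤ a := by
    have : (n : ℝ) ^ D j ≤ a := by
      rw [← hP]
      have : 0 ≤ (k : ℝ) * P := by positivity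
      linarith
    exact_mod_cast this
  have cond3 : b ≤ 2 * n * B := by exact_mod_cast c3
  have cond4 : n * B * a + n ^ D j * a + n ^ D j * B ≤ a * b := by
    rw [hP] at c4
    exact_mod_cast c4
  have cond5 : n ^ D j * (a + B) ≤ gap lam j := by
    have hgjr : X * a ≤ (k + 3) * (gap lam j : ℝ) := by
      have e1 : X * a = lam 2 := by rw [hX]; field_simp
      rw [e1]
      exact_mod_cast hgj
    have : (n : ℝ) ^ D j * (a + B) ≤ gap lam j := by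
      rw [← hP]
      have e0 : (a : ℝ) * Q ^ 3 ≤ a * X := mul_le_mul_of_nonneg_left hXQ3 ha0.le
      have e2 : (k + 3) * (P * ((a : ℝ) + B)) ≤ (k + 3) * (gap lam j : ℝ) := by linarith
      exact le_of_mul_le_mul_left e2 (by positivity)
    exact_mod_cast this
  have hgsum : ∑ i ∈ Finset.Icc 1 (k + 3), i * gap lam i = a * b := by
    rw [sum_gap hanti, hsum]
  have low := hD j hj3 hjm n hn4 hdvd a b B (gap lam) cond1 hBpos cond3 cond4 cond5 hgsum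
  rw [gw_gap hanti] at low
  exact stageC hU hanti hsum hab ha3 hC₀ hY1 hQ6 hP hP1 hP6 hr1 hr2 hbC hbQ h1 hn4 hBpos hnBb hBb
    hLB hN hexpL hexpq hexpx hX hq1 hqA (by linarith) hx0 h2 hCA2 low

end Vale.Agent.P181.NR.H436
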