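import Vale.Agent.P181.NR.Defs
import Vale.Agent.P181.TL.H639.BalB
import Vale.Agent.P181.TRT.H421.GtHW
import Vale.Agent.P181.R2.H350.PosAll
import Vale.Agent.P181.R2.H959.FMul

set_option autoImplicit false

/-!
# P181, NR: (N7), the lower bound for the side with `b` points
-/

open MvPolynomial

namespace Vale.Agent.P181.NR.H436

open Vale.Agent.P181.T4 (HW)
open Vale.Agent.P181.H280 (plethMult)
open Vale.Agent.P181.H463 (gt)
open Vale.Agent.P181.FR (gw Pos)
open Vale.Agent.P181.SZ Vale.Agent.P181.TL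

/-- The weight with gaps `g` has size `∑ i g_i`. -/
lemma sum_gw (m : ℕ) (g : ℕ → ℕ) : ∑ i, gw m g i = ∑ i ∈ Finset.Icc 1 m, i * g i := by
  have h1 : ∀ i : Fin m, gw m g i = ∑ t ∈ Finset.Icc 1 m, if (i : ℕ) < t then g t else 0 := by
    intro i
    rw [gw, ← Finset.sum_filter]
    apply Finset.sum_congr _ (fun _ _ => rfl)
    ext t
    simp only [Finset.mem_Ioc, Finset.mem_filter, Finset.mem_Icc]
    omega
  rw [Finset.sum_congr rfl fun i _ => h1 i, Finset.sum_comm]
  apply Finset.sum_congr rfl
  intro t ht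
  rw [Finset.mem_Icc] at ht
  rw [← Finset.sum_filter, Finset.sum_const, Fin.card_filter_val_lt, smul_eq_mul,
    min_eq_right ht.2]

lemma gw_anti (m : ℕ) (g : ℕ → ℕ) : Antitone (gw m g) := by
  intro i i' h
  exact Finset.sum_le_sum_of_subset (Finset.Ioc_subset_Ioc_left h)

lemma gw_mul (m B : ℕ) (g : ℕ → ℕ) : gw m (fun i => B * g i) = fun i => B * gw m g i := by
  funext k
  simp only [gw, Finset.mul_sum]

/-- Degrees of a label. -/
lemma lab_deg {m j n q l : ℕ} (hj : j ≤ m) (h : Lab m j n q l) : n * l = j * q := by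
  obtain ⟨P, x, hP, hx, -⟩ := h
  have h0 : P ≠ 0 := by
    rintro rfl
    exact hx (map_zero _)
  obtain ⟨v, hv⟩ := (MvPolynomial.ne_zero_iff).1 h0
  have h1 : ∀ i : Fin m, ∑ s, v (i, s) = if (i : ℕ) < j then q else 0 := hP.1.1 v hv
  have h2 : ∀ s : Fin n, ∑ i, v (i, s) = l := hP.2 v hv
  have h3 : ∑ s : Fin n, ∑ i, v (i, s) = n * l := by
    rw [Finset.sum_congr rfl fun s _ => h2 s, Finset.sum_const, Finset.card_univ,
      Fintype.card_fin, smul_eq_mul]
  rw [← h3, Finset.sum_comm, Finset.sum_congr rfl fun i _ => h1 i, ← Finset.sum_filter,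
    Finset.sum_const, Fin.card_filter_val_lt, smul_eq_mul, min_eq_right hj]

lemma choose_bd {n s t : ℕ} (hn : 0 < n) (hs : s ≤ t) :
    (n + s - 1).choose s ≤ (n + t).choose n := by
  obtain ⟨k, rfl⟩ : ∃ k, n = k + 1 := ⟨n - 1, by omega⟩
  have e1 : k + 1 + s - 1 = k + s := by omega
  have e2 : (k + s).choose s = (k + s).choose k := by
    rw [Nat.choose_symm_add]
  rw [e1, e2]
  calc (k + s).choose k ≤ (k + s + 1).choose (k + 1) := by
        rw [Nat.choose_succ_succ]
        exact Nat.le_add_right _ _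
    _ ≤ (k + 1 + t).choose (k + 1) := Nat.choose_le_choose _ (by omega)

/-- The numbers of one row. -/
lemma row_bd {K B N D eta : ℕ} (hB : 0 < B) (hN : 0 < N) (hKN : 10 * N ≤ K)
    (h : 2 * (K * B) ≤ D → D ≤ 10 * B * eta) :
    max 1 (D / (K * B)) ≤ max 1 (eta / N) := by
  have hK : 0 < K := by omega
  have hKB : 0 < K * B := Nat.mul_pos hK hB
  apply max_le (le_max_left _ _)
  by_cases hD : D < 2 * (K * B)
  · have h1 : D / (K * B) < 2 := by
      rw [Nat.div_lt_iff_lt_mul hKB]
      exact hD
    exact le_trans (by omega) (le_max_left _ _)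
  · rw [not_lt] at hD
    have h1 := h hD
    apply le_trans _ (le_max_right _ _)
    rw [Nat.le_div_iff_mul_le hN]
    have h2 : D / (K * B) * (K * B) ≤ D := Nat.div_mul_le_self _ _
    have h3 : D / (K * B) * (10 * N * B) ≤ 10 * B * eta := by
      refine le_trans ?_ (h2.trans h1)
      exact Nat.mul_le_mul_left _ (Nat.mul_le_mul_right _ hKN)
    have h4 : (10 * B) * (D / (K * B) * N) ≤ (10 * B) * eta := by
      calc (10 * B) * (D / (K * B) * N) = D / (K * B) * (10 * N * B) := by ring
        _ ≤ 10 * B * eta := h3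
    exact Nat.le_of_mul_le_mul_left h4 (by omega)

theorem lowR (h1 : LabS) (h2 : BlkS) (h3 : GtS) (h4 : PowS) (h5 : SplS) : LowR := by
  classical
  intro m j n hj hjm hn hdvd
  obtain ⟨q, l, hq, hLab⟩ := h1 m j n hj hjm (by omega)
  obtain ⟨a0, hpos⟩ := FR.pos_all (m := m) (i := j) (by omega) hjm
  have hdeg := lab_deg hjm hLab
  obtain ⟨M, hM⟩ : ∃ M, M = m.factorial := ⟨_, rfl⟩
  have hM0 : 0 < M := hM ▸ Nat.factorial_pos m
  obtain ⟨K, hK⟩ : ∃ K, K = a0 + l + 10 * n + 10 * (q * m) + 10 * q + 10 * (m * M) + 10 * M +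
    10 * (m * m) + 20 * m + 11 := ⟨_, rfl⟩
  refine ⟨K, by omega, ?_⟩
  intro a b B g hKa hB hb hab hgj hsum
  obtain ⟨X, hX⟩ : ∃ X, X = 3 * (m + 1) * a := ⟨_, rfl⟩
  have hXa : X = (3 * m + 3) * a := by rw [hX]; ring
  have hXK : 2 * X ≤ K * a := by
    rw [hXa, ← mul_assoc]
    exact Nat.mul_le_mul_right _ (by omega)
  have ha0 : 0 < a := by omega
  have hn0 : 0 < n := by omega
  -- the block weight
  obtain ⟨c, hc1, hc2, hc3, hc4, hc5⟩ := h5 m j n a b B X q g (by omega) hjm hdvd hn0 hB hsum hb
    (by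
      rw [← hM]
      have e1 : m * X ≤ K * a := by
        rw [hXa, ← mul_assoc]
        refine Nat.mul_le_mul_right _ ?_
        have : m * (3 * m + 3) = 3 * (m * m) + 3 * m := by ring
        omega
      have e2 : m * B * M ≤ K * B := by
        have : m * B * M = m * M * B := by ring
        rw [this]
        exact Nat.mul_le_mul_right _ (by omega)
      omega)
    (by
      rw [← hM]
      have e1 : 2 * B * (M + q) ≤ K * B := by
        have : 2 * B * (M + q) = (2 * M + 2 * q) * B := by ring
        rw [this]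
        exact Nat.mul_le_mul_right _ (by omega)
      have e2 : K * (a + B) = K * a + K * B := by ring
      omega)
  rw [← hM] at hc5
  -- the weight of the block without the label
  obtain ⟨c', hc'⟩ : ∃ c' : ℕ → ℕ, c' = fun i => c i - if i = j then q else 0 := ⟨_, rfl⟩
  have hcc : ∀ i, c' i + (if i = j then q else 0) = c i := by
    intro i
    rw [hc']
    by_cases h : i = j
    · subst h
      simp only [if_true]
      omega
    · simp [h]
  have heta : ∀ i : Fin m, gw m c' i + (if (i : ℕ) < j then q else 0) = gw m c i := by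
    intro i
    have e1 := congrFun (FR.H350.gw_add m c' (fun i => if i = j then q else 0)) i
    simp only [hcc] at e1
    rw [Pi.add_apply, FR.H350.gw_single hjm] at e1
    change gw m c i = _ at e1
    rw [e1]
    simp only [Pi.smul_apply, smul_eq_mul, FR.om]
    by_cases h : (i : ℕ) < j
    · simp [h]
    · simp [h]
  have hsumeta : ∑ i, gw m c' i = n * (a - l) := by
    have e1 : ∑ i, gw m c i = n * a := by rw [sum_gw, hc1]
    have e2 : ∑ i, gw m c i = ∑ i, gw m c' i + j * q := by
      rw [Finset.sum_congr rfl fun i _ => (heta i).symm, Finset.sum_add_distrib,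
        ← Finset.sum_filter, Finset.sum_const, Fin.card_filter_val_lt, smul_eq_mul,
        min_eq_right hjm]
    rw [Nat.mul_sub]
    omega
  have hblk := h2 m j n q l a (gw m c') hLab (by omega)
  have hblk2 : (fun i : Fin m => gw m c' i + if (i : ℕ) < j then q else 0) = gw m c :=
    funext heta
  rw [hblk2] at hblk
  have hbal := TL.H639.balB m n (gw m c') (fun _ => a - l) hn0 (fun _ _ => by omega) (by
    rw [hsumeta, Finset.sum_const, Finset.card_univ, Fintype.card_fin, smul_eq_mul])
  have hgt := TRT.H421.gtHW m n (gw m c') (gw_anti _ _)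
  have hrow := h3 m n (gw m c') (gw_anti _ _) (by omega)
  have hch : (n + ∑ i, gw m c' i - 1).choose (∑ i, gw m c' i) ≤ (n + n * a).choose n :=
    choose_bd hn0 (by rw [hsumeta]; exact Nat.mul_le_mul_left _ (Nat.sub_le _ _))
  have hPr : ∏ i, max 1 (gw m c' i / (n - 2 * m)) ^ (n - 2 * m - 1) ≤
      (n + n * a).choose n * (n.factorial * plethMult n a m (gw m c)) :=
    (hrow.trans hgt).trans (hbal.trans (Nat.mul_le_mul hch hblk))
  -- the blocks
  have hpow := h4 n B a m (gw m c)
  -- the rest
  have hnB : n * B ≤ b := by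
    refine Nat.le_of_mul_le_mul_left ?_ ha0
    have : a * (n * B) = n * B * a := by ring
    omega
  have hP : Pos (b - n * B) a m (gw m fun i => g i - B * c i) := by
    refine hpos a (b - n * B) _ (by omega) ?_ ?_
    · rw [← hX]
      have := hc4
      omega
    · have e1 : ∑ i ∈ Finset.Icc 1 m, i * (g i - B * c i) + ∑ i ∈ Finset.Icc 1 m, B * (i * c i) =
          ∑ i ∈ Finset.Icc 1 m, i * g i := by
        rw [← Finset.sum_add_distrib]
        refine Finset.sum_congr rfl fun i _ => ?_
        have e2 : B * (i * c i) = i * (B * c i) := by ring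
        rw [e2, ← Nat.mul_add, Nat.sub_add_cancel (hc2 i)]
      rw [← Finset.mul_sum, hc1, hsum] at e1
      have e3 : a * (b - n * B) = a * b - B * (n * a) := by
        rw [Nat.mul_sub]
        congr 1
        ring
      rw [e3]
      omega
  have hrest : plethMult (n * B) a m (fun i => B * gw m c i) ≤ plethMult b a m (gw m g) := by
    have e1 := FR.plethMult_mul (b := n * B) (lam := fun i => B * gw m c i) hP
    have e2 : n * B + (b - n * B) = b := Nat.add_sub_cancel' hnB
    have e3 : (fun i => B * gw m c i) + (gw m fun i => g i - B * c i) = gw m g := by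
      rw [← gw_mul, ← FR.H350.gw_add]
      congr 1
      funext i
      exact Nat.add_sub_cancel' (hc2 i)
    rw [e2, e3] at e1
    exact e1
  -- the rows
  have hD : ∀ i : Fin m, gw m g i ≤ 2 * B * gw m c i + 2 * B * (m * M) +
      if (i : ℕ) < j then X else 0 := by
    intro i
    have e1 : gw m g i ≤ ∑ t ∈ Finset.Ioc (i : ℕ) m,
        (2 * B * c t + 2 * B * M + if t = j then X else 0) := by
      refine Finset.sum_le_sum fun t ht => hc5 t ?_
      rw [Finset.mem_Ioc] at ht
      exact Finset.mem_Icc.2 ⟨by omega, ht.2⟩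
    refine e1.trans ?_
    rw [Finset.sum_add_distrib, Finset.sum_add_distrib, ← Finset.mul_sum, Finset.sum_const,
      Nat.card_Ioc, smul_eq_mul, Finset.sum_ite_eq']
    refine Nat.add_le_add (Nat.add_le_add le_rfl ?_) ?_
    · have : 2 * B * (m * M) = m * (2 * B * M) := by ring
      rw [this]
      exact Nat.mul_le_mul_right _ (Nat.sub_le _ _)
    · by_cases h : (i : ℕ) < j
      · rw [if_pos h, if_pos (Finset.mem_Ioc.2 ⟨h, hjm⟩)]
      · rw [if_neg (fun hh => h (Finset.mem_Ioc.1 hh).1)]
        exact Nat.zero_le _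
  have hcj : X + (K - 2 * M) * B ≤ 2 * B * c j := by
    have e1 := hc5 j (Finset.mem_Icc.2 ⟨by omega, hjm⟩)
    rw [if_pos rfl] at e1
    have e2 : K * (a + B) = K * a + K * B := by ring
    have e3 : (K - 2 * M) * B = K * B - 2 * B * M := by
      rw [Nat.sub_mul]
      congr 1
      ring
    have e4 : 2 * B * M ≤ K * B := by
      have : 2 * B * M = 2 * M * B := by ring
      rw [this]
      exact Nat.mul_le_mul_right _ (by omega)
    omega
  have hcj2 : 4 * q + 4 * (m * M) ≤ 2 * c j := by
    have e1 : (4 * q + 4 * (m * M)) * B ≤ (2 * c j) * B := by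
      calc (4 * q + 4 * (m * M)) * B ≤ (K - 2 * M) * B := Nat.mul_le_mul_right _ (by omega)
        _ ≤ 2 * B * c j := (Nat.le_add_left _ _).trans hcj
        _ = (2 * c j) * B := by ring
    exact Nat.le_of_mul_le_mul_right e1 hB
  have hcmp : ∀ i : Fin m, max 1 (gw m g i / (K * B)) ≤ max 1 (gw m c' i / (n - 2 * m)) := by
    intro i
    refine row_bd hB (by omega) (by omega) ?_
    intro h2K
    have hDi := hD i
    have hei := heta i
    by_cases h : (i : ℕ) < j
    · rw [if_pos h] at hDi hei
      have hG : c j ≤ gw m c i :=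
        Finset.single_le_sum (f := c) (fun _ _ => Nat.zero_le _) (Finset.mem_Ioc.2 ⟨h, hjm⟩)
      have e1 : X ≤ 2 * B * gw m c i :=
        ((Nat.le_add_right _ _).trans hcj).trans (Nat.mul_le_mul_left _ hG)
      have e2 : gw m c i ≤ 2 * gw m c' i := by omega
      have e3 : 2 * (m * M) ≤ gw m c i := by omega
      have e4 : 2 * B * (m * M) ≤ B * gw m c i := by
        calc 2 * B * (m * M) = B * (2 * (m * M)) := by ring
          _ ≤ _ := Nat.mul_le_mul_left _ e3
      have e5 : B * gw m c i ≤ B * (2 * gw m c' i) := Nat.mul_le_mul_left _ e2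
      have e6 : 2 * B * gw m c i = 2 * (B * gw m c i) := by ring
      have e7 : 10 * B * gw m c' i = 5 * (B * (2 * gw m c' i)) := by ring
      omega
    · rw [if_neg h] at hDi hei
      rw [add_zero] at hDi hei
      rw [hei]
      have e1 : (2 * K) * B ≤ (2 * gw m c i + 2 * (m * M)) * B := by
        calc (2 * K) * B = 2 * (K * B) := by ring
          _ ≤ 2 * B * gw m c i + 2 * B * (m * M) := h2K.trans hDi
          _ = _ := by ring
      have e2 := Nat.le_of_mul_le_mul_right e1 hB
      have e3 : 2 * (m * M) ≤ gw m c i := by omega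
      have e4 : 2 * B * (m * M) ≤ B * gw m c i := by
        calc 2 * B * (m * M) = B * (2 * (m * M)) := by ring
          _ ≤ _ := Nat.mul_le_mul_left _ e3
      have e6 : 2 * B * gw m c i = 2 * (B * gw m c i) := by ring
      have e7 : 10 * B * gw m c i = 10 * (B * gw m c i) := by ring
      omega
  -- all together
  calc (∏ i : Fin m, max 1 (gw m g i / (K * B)) ^ (n - 2 * m - 1)) ^ B
      ≤ (∏ i, max 1 (gw m c' i / (n - 2 * m)) ^ (n - 2 * m - 1)) ^ B :=
        Nat.pow_le_pow_left (Finset.prod_le_prod' fun i _ => Nat.pow_le_pow_left (hcmp i) _) _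
    _ ≤ ((n + n * a).choose n * (n.factorial * plethMult n a m (gw m c))) ^ B :=
        Nat.pow_le_pow_left hPr _
    _ = (n + n * a).choose n ^ B * (n.factorial * plethMult n a m (gw m c)) ^ B := mul_pow _ _ _
    _ ≤ (n + n * a).choose n ^ B *
        ((n * B).factorial * plethMult (n * B) a m (fun i => B * gw m c i)) :=
        Nat.mul_le_mul_left _ hpow
    _ ≤ (n + n * a).choose n ^ B * ((n * B).factorial * plethMult b a m (gw m g)) :=
        Nat.mul_le_mul_left _ (Nat.mul_le_mul_left _ hrest)
    _ = (n * B).factorial * (n + n * a).choose n ^ B * plethMult b a m (gw m g) := by ring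

end Vale.Agent.P181.NR.H436
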